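import Vale.Agent.P231.W.Defs
import Vale.Agent.P231.WN.Num
import Vale.Agent.P231.H703.MultLE

/-! P231, block L: from the volume inequality for `l = 1` to the final statement. -/

set_option maxSynthPendingDepth 3
set_option linter.unusedSectionVars false

open Bundle Manifold Set Filter Module
open scoped ContDiff Manifold Topology ENNReal

namespace Vale.Agent.P231.L

noncomputable section

open Vale.Agent.P234 Vale.Agent.P231 Vale.Agent.P231.H703

/-- the arithmetic: `v` is bounded by the volume of the model -/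
theorem arith {n N : ℕ} (hn : 1 ≤ n) (hN : N + 1 = 2 * n) {D v κ q : ℝ} (hD : 0 < D)
    (hκ : |κ| = 2 * Real.pi) (hq : |q| ≤ (2 * Real.pi) ^ n)
    (h : |κ / (2 * D)| ^ (2 * n) *
      ((N.factorial : ℝ) * (2 * √Real.pi ^ (2 * n) / Real.Gamma n) * v) =
      (Nat.choose (2 * n) n : ℝ) * q ^ 2) :
    v ≤ Blaschke.modelVolume N 1 D := by
  have hN' : N = 2 * n - 1 := by omega
  subst hN'
  rw [← WN.number hn hD]
  have hpi := Real.pi_pos
  have hg : 0 < Real.Gamma n := Real.Gamma_pos_of_pos (by exact_mod_cast hn)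
  have hs : 0 < (2 * √Real.pi ^ (2 * n) / Real.Gamma n) := by positivity
  have hf : (0 : ℝ) < ((2 * n - 1).factorial : ℝ) := by exact_mod_cast Nat.factorial_pos _
  generalize (2 * √Real.pi ^ (2 * n) / Real.Gamma n) = S at *
  rw [le_div_iff₀ (by positivity)]
  rw [abs_div, abs_of_pos (show (0 : ℝ) < 2 * D by positivity), hκ] at h
  have hq2 : q ^ 2 ≤ (2 * Real.pi) ^ (2 * n) := by
    rw [pow_mul', ← sq_abs]
    exact pow_le_pow_left₀ (abs_nonneg q) hq 2
  have hC : (0 : ℝ) ≤ (Nat.choose (2 * n) n : ℝ) := Nat.cast_nonneg _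
  have h1 : (2 * Real.pi / (2 * D)) ^ (2 * n) * (((2 * n - 1).factorial : ℝ) * S * v) ≤
      (Nat.choose (2 * n) n : ℝ) * (2 * Real.pi) ^ (2 * n) := by
    rw [h]
    exact mul_le_mul_of_nonneg_left hq2 hC
  rw [div_pow] at h1
  have hP : (0 : ℝ) < (2 * Real.pi) ^ (2 * n) := by positivity
  have hT : (0 : ℝ) < (2 * D) ^ (2 * n) := by positivity
  generalize (2 * Real.pi) ^ (2 * n) = P at *
  generalize (2 * D) ^ (2 * n) = X at *
  rw [div_mul_eq_mul_div, div_le_iff₀ hT, mul_comm _ P, mul_assoc] at h1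
  have h2 : P * (((2 * n - 1).factorial : ℝ) * S * v) ≤
      P * ((Nat.choose (2 * n) n : ℝ) * X) := by linarith
  have h3 := le_of_mul_le_mul_left h2 hP
  linarith

variable {E : Type*} [NormedAddCommGroup E] [NormedSpace ℝ E]
  {M : Type*} [MetricSpace M] [ChartedSpace E M]
  [RiemannianBundle (fun x : M => TangentSpace 𝓘(ℝ, E) x)]
  {e : ∀ x : M, TangentSpace 𝓘(ℝ, E) x → M}
  [FiniteDimensional ℝ E] [IsManifold 𝓘(ℝ, E) ∞ M]
  [IsContMDiffRiemannianBundle 𝓘(ℝ, E) ∞ E (fun x : M => TangentSpace 𝓘(ℝ, E) x)]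
  [CompactSpace M] [ConnectedSpace M] [IsRiemannianManifold 𝓘(ℝ, E) M]

/-- the final step: from the volume bound to the conclusion -/
theorem hand_of_volume [MeasurableSpace M] [BorelSpace M] (he : IsExp e)
    (hinj : Blaschke.InjGeDiam e) {N : ℕ} (hN : finrank ℝ E = N + 1) {l : ℕ}
    (hl : IsLeast {k | Blaschke.MultLE e k} l)
    (hvol : ∀ (_ : Facts e) {D : ℝ} (_ : 0 < D) (_ : InjGE e D)
      (_ : ∀ p q : M, dist p q ≤ D) (_ : l ≤ N)
      (_ : ∀ (x : M) (v : TangentSpace 𝓘(ℝ, E) x), ‖v‖ = 1 → finrank ℝ (Ker e D x v) = l)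
      (_ : ∀ x y : M, dist x y = D → finrank ℝ (Pl e D x y) = l + 1),
      Blaschke.riemannianVolume (N + 1) M univ ≤ ENNReal.ofReal (Blaschke.modelVolume N l D)) :
    Blaschke.GeodesicSymmetric e ∧ Blaschke.TwoPointHomogeneous M := by
  refine (main_theorem he hinj hN hl.1).2 ?_
  have F : Facts e := facts_of_isExp he
  obtain ⟨x₀⟩ : Nonempty M := inferInstance
  have hD : 0 < Metric.diam (univ : Set M) := diam_pos he hN x₀
  have hB : InjGE e (Metric.diam (univ : Set M)) := injGE_of_injOn F hD hinj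
  have hd : ∀ x y : M, dist x y ≤ Metric.diam (univ : Set M) := fun x y =>
    Metric.dist_le_diam_of_mem (isCompact_univ.isBounded) (mem_univ x) (mem_univ y)
  obtain ⟨h1, h2, h3⟩ := mult_of_isLeast he F hD hB hd rfl hN hl
  exact hvol F hD hB hd h1 h2 h3

end

end Vale.Agent.P231.L
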