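import Vale.Agent.P231.L.Final
import Vale.Agent.P231.H304.HvFin
import Vale.Agent.P231.H766.PushOf
import Vale.Agent.P231.H766.Sum
import Vale.Agent.P231.H766.Sgn
import Vale.Agent.P231.WC.YLoc

/-! P231, block L: the main theorem for cut multiplicity one. -/

set_option maxSynthPendingDepth 3
set_option linter.unusedSectionVars false
set_option linter.unusedVariables false

open Bundle Manifold Set Filter Module MeasureTheory
open scoped ContDiff Manifold Topology ENNReal Real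

namespace Vale.Agent.P231.L

noncomputable section

open Vale.Agent.P234 Vale.Agent.P231 Vale.Agent.P231.Fm Vale.Agent.P231.W Vale.Agent.P231.WG
  Vale.Agent.P231.WR

variable {E : Type*} [NormedAddCommGroup E] [NormedSpace ℝ E]
  {M : Type*} [MetricSpace M] [ChartedSpace E M]
  [RiemannianBundle (fun x : M => TangentSpace 𝓘(ℝ, E) x)]
  {e : ∀ x : M, TangentSpace 𝓘(ℝ, E) x → M}
  [FiniteDimensional ℝ E] [IsManifold 𝓘(ℝ, E) ∞ M]
  [IsContMDiffRiemannianBundle 𝓘(ℝ, E) ∞ E (fun x : M => TangentSpace 𝓘(ℝ, E) x)]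
  [CompactSpace M] [ConnectedSpace M] [IsRiemannianManifold 𝓘(ℝ, E) M]

/-- a section of the line bundle is a smooth field -/
theorem map_vec_sec {D : ℝ} {w : UT E M → UT E M} (h : IsSec e D w) :
    (dUT E M).Map (dTM E M) (fun v => tb (foot v) (vec' (w v))) := by
  intro E' _ _ _ u x hu
  have h1 := at_iff.1 (h.map hu)
  change ∀ᶠ s in 𝓝 x, H775.SmV (fun s => foot (u s)) (fun s => (vec' (w (u s)) : E)) s
  filter_upwards [h1] with s hs
  refine ContMDiffAt.congr_of_eventuallyEq hs ?_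
  refine Eventually.of_forall fun s => tb_congr ?_ rfl
  exact ((h.isL (u s)).foot_eq).symm

/-- **Block C**: every section of the line bundle has a push-off. -/
theorem push (F : Facts e) {D : ℝ} (hD : 0 < D) (hB : InjGE e D)
    (hdiam : ∀ p q : M, dist p q ≤ D) {N : ℕ} (hN : finrank ℝ E = N + 1)
    (hK : ∀ (x : M) (v : TangentSpace 𝓘(ℝ, E) x), ‖v‖ = 1 → finrank ℝ (H703.Ker e D x v) = 1)
    (hP : ∀ x y : M, dist x y = D → finrank ℝ (H775.Pl e D x y) = 2)
    {w : UT E M → UT E M} (h : IsSec e D w) :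
    ∃ (Y : UT E M → E) (ε₀ : ℝ), WD.Push F D w Y ε₀ := by
  obtain ⟨h1, h2⟩ := H766.en_of_local F hD hB hdiam (Y := WC.Yf F D w) (H583.map_Yf F h)
    (f := fun v => ip (foot v) (WC.Yf F D w v) (vec' (w v)))
    (H583.Y_pos F hD hB hdiam hN hK h)
    (WC.map_ip (H583.map_Yf F h) (map_vec_sec h))
    (WC.local_first F hD hB h)
    (WC.local_second F hD hB hdiam h (H766.w_phi_neg F hD hB hdiam hN hK hP h))
  obtain ⟨ε₀, h3⟩ := H766.push_of F hD hB hdiam hN hK h h1 h2
  exact ⟨_, ε₀, h3⟩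

/-- **The volume of a Blaschke manifold with cut multiplicity one.** -/
theorem volume_le [MeasurableSpace M] [BorelSpace M] (Fa : Facts e) {D : ℝ} (hD : 0 < D)
    (hB : InjGE e D) (hdiam : ∀ p q : M, dist p q ≤ D) {N : ℕ} (hN : finrank ℝ E = N + 1)
    (hN3 : 3 ≤ finrank ℝ E)
    (hK : ∀ (x : M) (v : TangentSpace 𝓘(ℝ, E) x), ‖v‖ = 1 → finrank ℝ (H703.Ker e D x v) = 1)
    (hP : ∀ x y : M, dist x y = D → finrank ℝ (H703.Pl e D x y) = 2) :
    Blaschke.riemannianVolume (N + 1) M univ ≤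
      ENNReal.ofReal (Blaschke.modelVolume N 1 D) :=
  volume_le_of_CH Fa hD hB hdiam hN hN3 hP (fun h => push Fa hD hB hdiam hN hK hP h)
    (fun X v0 _ _ hr hDR o => CV.block_H Fa hD hB hdiam hN X v0 hr hDR o)

/-- **Main theorem for cut multiplicity one.** -/
theorem main_one [MeasurableSpace M] [BorelSpace M] (he : IsExp e)
    (hinj : Blaschke.InjGeDiam e) (hN3 : 3 ≤ finrank ℝ E)
    (hl : IsLeast {k | Blaschke.MultLE e k} 1) :
    Blaschke.GeodesicSymmetric e ∧ Blaschke.TwoPointHomogeneous M := by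
  obtain ⟨N, hN⟩ : ∃ N, finrank ℝ E = N + 1 := ⟨finrank ℝ E - 1, by omega⟩
  refine hand_of_volume he hinj hN hl fun Fa D hD hB hdiam _ hK hP => ?_
  exact volume_le Fa hD hB hdiam hN hN3 hK hP

end

end Vale.Agent.P231.L
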