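import Vale.Agent.P231.L.Top
import Vale.Agent.P231.H584.Formal
import Vale.Agent.P231.WA.Inv
import Vale.Agent.P231.WF.Conn

/-! P231, block L: assembly of the volume inequality from the blocks. -/

set_option maxSynthPendingDepth 3
set_option linter.unusedSectionVars false
set_option linter.unusedVariables false

open Bundle Manifold Set Filter Module MeasureTheory
open scoped ContDiff Manifold Topology ENNReal Real

namespace Vale.Agent.P231.L

noncomputable section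

open Vale.Agent.P234 Vale.Agent.P231 Vale.Agent.P231.H703 Vale.Agent.P231.Fm Vale.Agent.P231.W

variable {E : Type*} [NormedAddCommGroup E] [NormedSpace ℝ E]
  {M : Type*} [MetricSpace M] [ChartedSpace E M]
  [RiemannianBundle (fun x : M => TangentSpace 𝓘(ℝ, E) x)]
  {e : ∀ x : M, TangentSpace 𝓘(ℝ, E) x → M}
  [FiniteDimensional ℝ E] [IsManifold 𝓘(ℝ, E) ∞ M]
  [IsContMDiffRiemannianBundle 𝓘(ℝ, E) ∞ E (fun x : M => TangentSpace 𝓘(ℝ, E) x)]
  [CompactSpace M] [ConnectedSpace M] [IsRiemannianManifold 𝓘(ℝ, E) M]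

theorem dimLE_bridge {X : Type*} {D : Dif X} {m : ℕ} (h : WF.DimLE D m) : WA.DimLE D m :=
  fun {E} _ _ _ {u x} hu => h hu

/-- **Assembly.** -/
theorem volume_le_of [MeasurableSpace M] [BorelSpace M] (Fa : Facts e) {D : ℝ} (hD : 0 < D)
    (hB : InjGE e D) (hdiam : ∀ p q : M, dist p q ≤ D) {N n : ℕ} (hN : finrank ℝ E = N + 1)
    (hn : 2 ≤ n) (hNn : N + 1 = 2 * n)
    -- the closed form (E3)
    (Om : Form (dM E M)) (hΩ2 : Form.IsDeg 2 Om) (hΩd : Om.d = 0)
    -- the rotation flow (F2)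
    {ρ : UT E M × ℝ → UT E M} (hρ : IsFlow (dUT E M) (2 * π) ρ)
    (hfρ : ∀ v t, foot (ρ (v, t)) = foot v)
    (hfρ' : ∀ v t, bar e D (ρ (v, t)) = bar e D v)
    -- the contractions (B, C)
    {gp gm' : UT E M × ℝ → M} (hgp : ((dUT E M).prod (Dif.lin ℝ)).Map (dM E M) gp)
    (hgm : ((dUT E M).prod (Dif.lin ℝ)).Map (dM E M) gm')
    (gp0 : ∀ v, gp (v, 0) = foot v) (gp1 : ∀ v t, gp (phi Fa (v, t), 1) = gp (v, 1))
    (gm0 : ∀ v, gm' (v, 0) = foot v) (gm1 : ∀ v t, gm' (phi Fa (v, t), 1) = gm' (v, 1))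
    -- the integral (G)
    (I : Form (dUT E M) →ₗ[ℝ] ℝ) (hId : ∀ w : Form (dUT E M), I w.d = 0)
    (hIm : ∀ w, I w = I (Form.part (2 * N + 1) w))
    (hIφ : ∀ w : Form (dUT E M), Basic (phi Fa) (map_phi Fa) w → I w = 0)
    (hIρ : ∀ w : Form (dUT E M), Basic ρ hρ.map w → I w = 0)
    -- the contact form (H)
    (α : Form (dUT E M)) (hα1 : Form.IsDeg 1 α)
    (hα : Form.pull (phi Fa) (map_phi Fa) α = pr α + dt)
    (hvol : |I (α * α.d ^ N)| = (N.factorial : ℝ) * (2 * √Real.pi ^ (2 * n) / Real.Gamma n) *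
      (Blaschke.riemannianVolume (N + 1) M univ).toReal)
    (hfin : Blaschke.riemannianVolume (N + 1) M univ ≠ ⊤)
    -- the periods (F2, D4)
    {κ κ' : ℝ} (hκ : |κ| = 2 * π) (hκ' : |κ'| = 2 * π)
    (hJ0 : J ρ hρ.map (2 * π) (KT D (Form.pull (gm e) (map_gm Fa) Om)) = κ • 1)
    (hJ1 : J (phi Fa) (map_phi Fa) (2 * D) (Form.K (Form.pull gp hgp Om) -
      Form.pull (fun v => phi Fa (v, D)) (H584.map_at (map_phi Fa) D)
        (Form.K (Form.pull gm' hgm Om))) = κ' • 1)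
    -- the value of the right-hand side (Q, EN)
    {q : ℝ} (hq : |q| ≤ (2 * π) ^ n)
    (hQ : |I (KT D (Form.pull (gm e) (map_gm Fa) Om) * ((Form.pull foot map_foot Om) ^ n *
      (Form.pull (fun v => gm e (v, D)) (H584.map_at (map_gm Fa) D) Om) ^ (n - 1)))| = q ^ 2) :
    Blaschke.riemannianVolume (N + 1) M univ ≤
      ENNReal.ofReal (Blaschke.modelVolume N 1 D) := by
  have hφ := isFlow_phi Fa hD hB hdiam
  have hpi := Real.pi_pos
  have hdimV : WA.DimLE (dUT E M) (2 * N + 1) := dimLE_bridge (WF.dimLE_UT E M hN)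
  have hdimM : WA.DimLE (dM E M) (2 * n) := hNn ▸ dimLE_bridge (WF.dimLE_M E M hN)
  have hm : ∀ w : Form (dUT E M), Form.part (2 * N + 1 + 1) w = 0 := fun w =>
    hdimV.part_eq_zero (by omega) w
  have hκ0 : κ ≠ 0 := fun h => by rw [h, abs_zero] at hκ; linarith
  have hκ0' : κ' ≠ 0 := fun h => by rw [h, abs_zero] at hκ'; linarith
  have hNN : 2 * n - 1 = N := by omega
  have h1 := H584.formal (dM := dM E M) (dV := dUT E M) (n := n) (by omega) (T := 2 * D)
    (c := 2 * π) (D := D) (by positivity) rfl hφ hρ map_foot (map_gm Fa) (fun p => rfl) hgp hgm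
    gp0 gp1 gm0 gm1 hfρ hfρ' hΩd (hΩ2.sg_of_even (by norm_num)) (hdimM.two_pow_succ hΩ2)
    (hα1.sg_of_odd (by norm_num)) hα hId hIφ hIρ (WA.hID hId hIm hm hφ) hκ0 hκ0' hJ0 hJ1
  have h2 := congrArg abs h1
  rw [hNN, abs_mul, hvol, abs_mul, abs_mul, abs_pow, abs_pow, abs_neg, abs_one, one_pow,
    one_mul, Nat.abs_cast] at h2
  have h3 := h2.trans (congrArg _ hQ)
  refine ENNReal.le_ofReal_iff_toReal_le hfin ?_ |>.2 (arith (by omega) hNn hD hκ' hq h3)
  have h4 := arith (v := 0) (n := n) (N := N) (D := D) (κ := κ') (q := 0) (by omega) hNn hD hκ'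
    (by rw [abs_zero]; positivity) (by simp)
  exact h4

end

end Vale.Agent.P231.L
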