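import Vale.Agent.P231.L.Core
import Vale.Agent.P231.WD.Kappa
import Vale.Agent.P231.WQ.Glue
import Vale.Agent.P231.WQ.Psi
import Vale.Agent.P231.WQ.Rad
import Vale.Agent.P231.WG.Stokes
import Vale.Agent.P231.WG.TopD
import Vale.Agent.P231.WG.BasUT
import Vale.Agent.P231.WG.FrameFr
import Vale.Agent.P231.WR.Two
import Vale.Agent.P231.WR.Par
import Vale.Agent.P231.WE2.JJ
import Vale.Agent.P231.WH.Vol

/-! P231, block L: the volume inequality for cut multiplicity one. -/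

set_option maxSynthPendingDepth 3
set_option linter.unusedSectionVars false
set_option linter.unusedVariables false

open Bundle Manifold Set Filter Module MeasureTheory
open scoped ContDiff Manifold Topology ENNReal Real

namespace Vale.Agent.P231.L

noncomputable section

open Vale.Agent.P234 Vale.Agent.P231 Vale.Agent.P231.Fm Vale.Agent.P231.W Vale.Agent.P231.WG
  Vale.Agent.P231.WR Vale.Agent.P231.WE Vale.Agent.P231.WQ

variable {E : Type*} [NormedAddCommGroup E] [NormedSpace ℝ E]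
  {M : Type*} [MetricSpace M] [ChartedSpace E M]
  [RiemannianBundle (fun x : M => TangentSpace 𝓘(ℝ, E) x)]
  {e : ∀ x : M, TangentSpace 𝓘(ℝ, E) x → M}
  [FiniteDimensional ℝ E] [IsManifold 𝓘(ℝ, E) ∞ M]
  [IsContMDiffRiemannianBundle 𝓘(ℝ, E) ∞ E (fun x : M => TangentSpace 𝓘(ℝ, E) x)]
  [CompactSpace M] [ConnectedSpace M] [IsRiemannianManifold 𝓘(ℝ, E) M]

theorem prt_of_mem_hom {V : Type*} [NormedAddCommGroup V] [NormedSpace ℝ V]
    [FiniteDimensional ℝ V] {k : ℕ} {w : Lam V} (h : w ∈ WF.hom V k) : WA.prt k w = w := by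
  induction k generalizing w with
  | zero =>
    obtain ⟨r, rfl⟩ := WF.mem_hom_zero.1 h
    rw [WA.prt_algebraMap, if_pos rfl]
  | succ k ih =>
    refine WF.hom_succ_induction (C := fun w => WA.prt (k + 1) w = w) (map_zero _)
      (fun a v hv => ?_) (fun v w hv hw => ?_) h
    · rw [WA.prt_succ_dxl_mul, ih hv]
    · rw [map_add, hv, hw]

/-- a form of degree `k` in the sense of block F is of degree `k` in the sense of block A -/
theorem isDeg_of_WF {X : Type*} {D : Dif X} {k : ℕ} {w : Form D} (h : WF.IsDeg w k) :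
    Form.IsDeg k w := Form.ext_val fun E _ _ _ u x hu => by
  rw [Form.part_val, prt_of_mem_hom (h hu)]

/-- **The volume inequality** (up to blocks C and H) -/
theorem volume_le_of_CH [MeasurableSpace M] [BorelSpace M] (Fa : Facts e) {D : ℝ} (hD : 0 < D)
    (hB : InjGE e D) (hdiam : ∀ p q : M, dist p q ≤ D) {N : ℕ} (hN : finrank ℝ E = N + 1)
    (hN3 : 3 ≤ finrank ℝ E)
    (hP : ∀ x y : M, dist x y = D → finrank ℝ (H775.Pl e D x y) = 2)
    (hC : ∀ {w : UT E M → UT E M} (_ : IsSec e D w), ∃ Y ε₀, WD.Push Fa D w Y ε₀)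
    (hH : ∀ {p : M} {R : ℝ} (X : Fr e p R) (v0 : UT E M) {r : Eu E → ℝ} {K : Set (Eu E)}
      (hr : Q.Cut r K) (hDR : D < R) (o : OrthonormalBasis (Fin (N + 1)) ℝ (Eu E)),
      ∃ α : Form (dUT E M), Form.IsDeg 1 α ∧ Form.pull (phi Fa) (map_phi Fa) α = pr α + dt ∧
        |II X v0 o.toBasis hr hDR (α * α.d ^ N)| =
          (N.factorial : ℝ) * (2 * √Real.pi ^ (N + 1) / Real.Gamma (((N : ℝ) + 1) / 2)) *
            (Blaschke.riemannianVolume (N + 1) M univ).toReal) :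
    Blaschke.riemannianVolume (N + 1) M univ ≤
      ENNReal.ofReal (Blaschke.modelVolume N 1 D) := by
  obtain ⟨p⟩ : Nonempty M := inferInstance
  -- the rotation field and the closed form
  obtain ⟨J, j1, j2, j3, j4, j5, j6, -⟩ := WE2.exists_J Fa hD hB hdiam hP hN3 p
  have hJ : LineJ e D p J := ⟨⟨j1, j2, j5, j4, j3⟩, j6⟩
  obtain ⟨ρ, r₀, hρ⟩ := exists_rho (E := E) (p := p) hD
  set Om := FF Fa hD hB hdiam hP hJ hρ with hOm
  have hO : Om.d = 0 := FF_d Fa hD hB hdiam hP hJ hρ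
  have hO2' : WF.IsDeg Om 2 := FF_deg Fa hD hB hdiam hP hJ hρ
  have hO2 : Form.IsDeg 2 Om := isDeg_of_WF hO2'
  obtain ⟨w, hw, hf, hf1, hf2, hf3⟩ := exists_rot Fa hD hB hdiam (by omega) hP hJ hρ
  -- a unit vector, the parity of the dimension
  obtain ⟨v0⟩ : Nonempty (UT E M) := by
    have : Nontrivial (TangentSpace 𝓘(ℝ, E) p) := by
      have h3 : 0 < finrank ℝ (TangentSpace 𝓘(ℝ, E) p) := by
        change 0 < finrank ℝ E
        omega
      exact Module.nontrivial_of_finrank_pos h3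
    obtain ⟨u, hu⟩ := exists_norm_eq (TangentSpace 𝓘(ℝ, E) p) zero_le_one
    exact ⟨mk p u hu⟩
  obtain ⟨n, hn'⟩ := even_dim Fa hD hB hdiam hP v0
  have hn : finrank ℝ E = 2 * n := by omega
  have hNn : N + 1 = 2 * n := by omega
  have hn2 : 2 ≤ n := by omega
  -- the cycle
  obtain ⟨X⟩ := nonempty_fr Fa hD hB p (D + 1)
  obtain ⟨r, K, hr, hrad⟩ := exists_radCut (V := Eu E)
  have hDR : D < D + 1 := lt_add_one D
  let o : OrthonormalBasis (Fin (N + 1)) ℝ (Eu E) :=
    (stdOrthonormalBasis ℝ (Eu E)).reindex (finCongr (by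
      rw [finrank_euclideanSpace, Fintype.card_fin, hN]))
  obtain ⟨α, hα1, hα, hvol⟩ := hH X v0 hr hDR o
  have hId : ∀ w : Form (dUT E M), II X v0 o.toBasis hr hDR w.d = 0 := fun w =>
    II_d Fa hD hB hdiam (fun x y h => (hP x y h).ge) X v0 o.toBasis hr hDR w
  have hIm : ∀ w, II X v0 o.toBasis hr hDR w =
      II X v0 o.toBasis hr hDR (Form.part (2 * N + 1) w) := fun w =>
    II_part X v0 o.toBasis hr hDR rfl w
  -- the contractions
  obtain ⟨Y, ε₀, hY⟩ := hC hw
  have hκ : |2 * Real.pi| = 2 * Real.pi := abs_of_pos (by positivity)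
  obtain ⟨gp, gm', hgp, hgm, κ', gp0, gp1, gm0, gm1, hκ', hJ1⟩ :=
    WD.d4 Fa hD hB hdiam (by omega) hP hw hY hO hO2 hκ hf3 v0
  -- the value of the right-hand side
  have hQ := hQ (v0 := v0) X Fa hD hB hdiam hw hO hO2' (n := n) (by omega) hn o.toBasis hr hrad hDR
    (ang_Psi (p := p) hJ.rj) (cut_rho hρ) (closedBall_sub hρ)
    (fun x hx => FF_ef Fa hD hB hdiam hP hJ hρ hx)
    (fun y hy => B0_cc Fa hD hB hdiam hP hJ hρ (by linarith) X v0 hy)
  have hq : |Q.qv volume o.toBasis r (Psi p J) (n - 1)| ≤ (2 * Real.pi) ^ n := by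
    have h1 := qv_le (p := p) hJ.rj hr (N := N + 1) (m := n - 1) (by omega) o
    have h2 : n - 1 + 1 = n := by omega
    rw [h2] at h1
    exact h1
  have hG : ((N : ℝ) + 1) / 2 = n := by
    have h1 : ((N : ℝ) + 1) = ((N + 1 : ℕ) : ℝ) := by push_cast; ring
    rw [h1, hNn]
    push_cast
    ring
  have hG2 : √Real.pi ^ (N + 1) = √Real.pi ^ (2 * n) := congrArg _ hNn
  rw [hG, hG2] at hvol
  exact volume_le_of Fa hD hB hdiam hN hn2 hNn Om hO2 hO hf hf1 hf2 hgp hgm gp0 gp1 gm0 gm1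
    (II X v0 o.toBasis hr hDR) hId hIm (fun w hb => int_basic_phi Fa hN _ hIm w hb)
    (fun w' hb => int_basic_rot hN _ hIm hw hf w' hb) α hα1 hα hvol (WH.vol_ne_top Fa hD hB hN)
    hκ hκ' hf3 hJ1 hq hQ

end

end Vale.Agent.P231.L
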