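import Vale.Agent.P231.L.Core
import Vale.Agent.P231.WQ.Main
import Vale.Agent.P231.WG.FrameFr
import Vale.Agent.P231.WG.Stokes
import Vale.Agent.P231.WG.TopD
import Vale.Agent.P231.WG.BasUT
import Vale.Agent.P231.WH.Vol
import Vale.Agent.P231.WR.Par

/-!
# P231, block L: the volume inequality for cut multiplicity one, from the push-off (block C) and
the contact form (block H)
-/

set_option maxSynthPendingDepth 3
set_option linter.unusedSectionVars false
set_option linter.unusedVariables false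

open Bundle Manifold Set Filter Module MeasureTheory
open scoped ContDiff Manifold Topology ENNReal Real

namespace Vale.Agent.P231.L

noncomputable section

open Vale.Agent.P234 Vale.Agent.P231 Vale.Agent.P231.H703 Vale.Agent.P231.Fm Vale.Agent.P231.W
  Vale.Agent.P231.WR Vale.Agent.P231.WG

variable {E : Type*} [NormedAddCommGroup E] [NormedSpace ℝ E]
  {M : Type*} [MetricSpace M] [ChartedSpace E M]
  [RiemannianBundle (fun x : M => TangentSpace 𝓘(ℝ, E) x)]
  {e : ∀ x : M, TangentSpace 𝓘(ℝ, E) x → M}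
  [FiniteDimensional ℝ E] [IsManifold 𝓘(ℝ, E) ∞ M]
  [IsContMDiffRiemannianBundle 𝓘(ℝ, E) ∞ E (fun x : M => TangentSpace 𝓘(ℝ, E) x)]
  [CompactSpace M] [ConnectedSpace M] [IsRiemannianManifold 𝓘(ℝ, E) M]

/-- **The volume inequality for cut multiplicity one.** -/
theorem volume_le_one [MeasurableSpace M] [BorelSpace M] (F : Facts e) {D : ℝ} (hD : 0 < D)
    (hB : InjGE e D) (hdiam : ∀ p q : M, dist p q ≤ D) {N n : ℕ} (hN : finrank ℝ E = N + 1)
    (hn : 2 ≤ n) (hNn : N + 1 = 2 * n)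
    (hP : ∀ x y : M, dist x y = D → finrank ℝ (H775.Pl e D x y) = 2)
    -- block C
    (hC : ∀ w : UT E M → UT E M, IsSec e D w → ∃ (Y : UT E M → E) (ε₀ : ℝ), WD.Push F D w Y ε₀)
    -- block H
    (hH : ∀ (p : M) (R : ℝ) (X : Fr e p R) (v0 : UT E M)
      (o : OrthonormalBasis (Fin (N + 1)) ℝ (Eu E)) (r : Eu E → ℝ) (K : Set (Eu E))
      (hr : Q.Cut r K) (hDR : D < R), ∃ α : Form (dUT E M), Form.IsDeg 1 α ∧
        Form.pull (phi F) (map_phi F) α = pr α + dt ∧
        |II X v0 o.toBasis hr hDR (α * α.d ^ N)| =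
          (N.factorial : ℝ) * (2 * √Real.pi ^ (2 * n) / Real.Gamma n) *
            (Blaschke.riemannianVolume (N + 1) M univ).toReal) :
    Blaschke.riemannianVolume (N + 1) M univ ≤ ENNReal.ofReal (Blaschke.modelVolume N 1 D) := by
  obtain ⟨p⟩ : Nonempty M := inferInstance
  have : Nontrivial (TangentSpace 𝓘(ℝ, E) p) := by
    have h3 : 0 < finrank ℝ (TangentSpace 𝓘(ℝ, E) p) := by
      change 0 < finrank ℝ E
      omega
    exact Module.nontrivial_of_finrank_pos h3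
  obtain ⟨u, hu⟩ := exists_norm_eq (TangentSpace 𝓘(ℝ, E) p) zero_le_one
  let v0 : UT E M := W.mk (E := E) p u hu
  obtain ⟨X⟩ := nonempty_fr F hD hB p (D + 1)
  have hDR : D < D + 1 := by linarith
  obtain ⟨r, K, hr, hrad⟩ := WQ.exists_radCut (V := Eu E)
  have hfr : finrank ℝ (Eu E) = N + 1 := by rw [finrank_euclideanSpace, Fintype.card_fin, hN]
  let o : OrthonormalBasis (Fin (N + 1)) ℝ (Eu E) :=
    (stdOrthonormalBasis ℝ (Eu E)).reindex (finCongr hfr)
  obtain ⟨Om, w, hw, hρ, q, a1, a2, a3, a4, a5, a6, a7⟩ := WQ.exists_main F hD hB hdiam hn hN hNn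
    hP X v0 o hr hrad hDR
  obtain ⟨Y, ε₀, hY⟩ := hC w hw
  obtain ⟨gp, gm', hgp, hgm, κ', c1, c2, c3, c4, c5, c6⟩ := WD.d4 F hD hB hdiam (by omega) hP hw hY
    a1 a2 (κ := 2 * π) (abs_of_pos (by positivity)) a5 v0
  obtain ⟨α, b1, b2, b3⟩ := hH p (D + 1) X v0 o r K hr hDR
  have hIm : ∀ w', II X v0 o.toBasis hr hDR w' =
      II X v0 o.toBasis hr hDR (Form.part (2 * N + 1) w') := fun w' =>
    II_part X v0 o.toBasis hr hDR rfl w'
  exact volume_le_of F hD hB hdiam hN hn hNn Om a2 a1 hρ a3 a4 hgp hgm c1 c2 c3 c4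
    (II X v0 o.toBasis hr hDR)
    (fun w' => II_d F hD hB hdiam (fun x y h => (hP x y h).ge) X v0 o.toBasis hr hDR w') hIm
    (fun w' hb => int_basic_phi F hN _ hIm w' hb)
    (fun w' hb => int_basic_rot hN _ hIm hw hρ w' hb)
    α b1 b2 b3 (WH.vol_ne_top F hD hB hN) (abs_of_pos (by positivity)) c5 a5 c6 a6 a7

/-- **The Blaschke conjecture for cut multiplicity one** (the type of the complex projective
spaces), from the blocks C and H. -/
theorem blaschke_one [MeasurableSpace M] [BorelSpace M] (he : IsExp e)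
    (hinj : Blaschke.InjGeDiam e) {N : ℕ} (hN : finrank ℝ E = N + 1) (h2 : 2 ≤ N)
    (hl : IsLeast {k | Blaschke.MultLE e k} 1)
    (hC : ∀ (F : Facts e) {D : ℝ} (_ : 0 < D) (_ : InjGE e D) (_ : ∀ p q : M, dist p q ≤ D)
      (_ : ∀ (x : M) (v : TangentSpace 𝓘(ℝ, E) x), ‖v‖ = 1 → finrank ℝ (Ker e D x v) = 1)
      (w : UT E M → UT E M), IsSec e D w →
        ∃ (Y : UT E M → E) (ε₀ : ℝ), WD.Push F D w Y ε₀)
    (hH : ∀ (F : Facts e) {D : ℝ} (_ : 0 < D) (_ : InjGE e D) (_ : ∀ p q : M, dist p q ≤ D)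
      (p : M) (R : ℝ) (X : Fr e p R) (v0 : UT E M)
      (o : OrthonormalBasis (Fin (N + 1)) ℝ (Eu E)) (r : Eu E → ℝ) (K : Set (Eu E))
      (hr : Q.Cut r K) (hDR : D < R) (n : ℕ), 1 ≤ n → N + 1 = 2 * n →
        ∃ α : Form (dUT E M), Form.IsDeg 1 α ∧
        Form.pull (phi F) (map_phi F) α = pr α + dt ∧
        |II X v0 o.toBasis hr hDR (α * α.d ^ N)| =
          (N.factorial : ℝ) * (2 * √Real.pi ^ (2 * n) / Real.Gamma n) *
            (Blaschke.riemannianVolume (N + 1) M univ).toReal) :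
    Blaschke.GeodesicSymmetric e ∧ Blaschke.TwoPointHomogeneous M := by
  refine hand_of_volume he hinj hN hl ?_
  intro F D hD hB hdiam h1 hK hP
  obtain ⟨p⟩ : Nonempty M := inferInstance
  have : Nontrivial (TangentSpace 𝓘(ℝ, E) p) := by
    have h3 : 0 < finrank ℝ (TangentSpace 𝓘(ℝ, E) p) := by
      change 0 < finrank ℝ E
      omega
    exact Module.nontrivial_of_finrank_pos h3
  obtain ⟨u, hu⟩ := exists_norm_eq (TangentSpace 𝓘(ℝ, E) p) zero_le_one
  obtain ⟨n, hn⟩ := even_dim F hD hB hdiam hP (W.mk (E := E) p u hu)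
  have hn2 : 2 ≤ n := by omega
  exact volume_le_one F hD hB hdiam hN hn2 (by omega) hP
    (fun w hw => hC F hD hB hdiam hK w hw)
    (fun p R X v0 o r K hr hDR => hH F hD hB hdiam p R X v0 o r K hr hDR n (by omega) (by omega))

end

end Vale.Agent.P231.L
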